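import Vale.Agent.P214.REG.Resc

/-!
# P214, block UPG: interpolation between a weak norm and a high derivative
-/

open MeasureTheory Metric
open scoped ContDiff Topology

namespace Vale.Agent.P214.UPG

open Vale.Agent.P214.REF Vale.Agent.P214.REG

noncomputable section

/-- extrapolation weights for the value at `0` -/
theorem exists_weights (q : ℕ) : ∃ (c t : Fin (q + 1) → ℝ), (∀ i, 0 < t i ∧ t i ≤ 1) ∧
    ∀ j : ℕ, j < q + 1 → ∑ i, c i * t i ^ j = if j = 0 then 1 else 0 := by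
  classical
  set t : Fin (q + 1) → ℝ := fun i => ((i : ℝ) + 1) / (q + 1) with ht
  have hk : (0 : ℝ) < (q : ℝ) + 1 := by positivity
  have hinj : Set.InjOn t (Finset.univ : Finset (Fin (q + 1))) := by
    intro i _ j _ hij
    simp only [ht] at hij
    have h1 : ((i : ℕ) : ℝ) = ((j : ℕ) : ℝ) := by
      field_simp at hij
      linarith
    exact Fin.ext (by exact_mod_cast h1)
  refine ⟨fun i => (Lagrange.basis Finset.univ t i).coeff 0, t, ?_, ?_⟩
  · intro i
    rw [ht]
    simp only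
    refine ⟨by positivity, ?_⟩
    rw [div_le_one hk]
    have := i.2
    have h2 : ((i : ℕ) : ℝ) ≤ (q : ℝ) := by exact_mod_cast (by omega : (i : ℕ) ≤ q)
    linarith
  · intro j hj
    have h1 : (Polynomial.X ^ j : Polynomial ℝ) = Lagrange.interpolate Finset.univ t
        (fun i => (Polynomial.X ^ j : Polynomial ℝ).eval (t i)) := by
      refine Lagrange.eq_interpolate hinj ?_
      rw [Polynomial.degree_X_pow]
      simp only [Finset.card_univ, Fintype.card_fin]
      exact_mod_cast hj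
    have h2 := congrArg (fun p : Polynomial ℝ => p.coeff 0) h1
    simp only [Lagrange.interpolate_apply, Polynomial.eval_pow, Polynomial.eval_X,
      Polynomial.finsetSum_coeff, Polynomial.coeff_C_mul, Polynomial.coeff_X_pow] at h2
    rw [← Finset.sum_congr rfl (fun i _ => mul_comm (t i ^ j)
      ((Lagrange.basis Finset.univ t i).coeff 0))]
    rw [← h2]
    by_cases hj1 : j = 0
    · simp [hj1]
    · have : ¬ (0 = j) := fun h => hj1 h.symm
      simp [hj1, this]

/-- the extrapolation formula in one variable -/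
lemma weights_apply {q : ℕ} {c t : Fin (q + 1) → ℝ} (ht : ∀ i, 0 < t i ∧ t i ≤ 1)
    (hc : ∀ j : ℕ, j < q + 1 → ∑ i, c i * t i ^ j = if j = 0 then 1 else 0) {h : ℝ → ℝ}
    (hh : ContDiff ℝ ∞ h) {B : ℝ} (hB : ∀ s ∈ Set.Icc (0 : ℝ) 1, ‖iteratedDeriv (q + 1) h s‖ ≤ B) :
    |∑ i, c i * h (t i) - h 0| ≤ (∑ i, |c i|) * B := by
  have hB0 : 0 ≤ B := (norm_nonneg _).trans (hB 0 (by simp))
  have h1 : ∀ i, |h (t i) - taylorWithinEval h q (Set.Icc 0 1) 0 (t i)| ≤ B := by
    intro i
    have h2 := taylor_mean_remainder_bound (f := h) (a := 0) (b := 1) (C := B) (x := t i) (n := q)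
      zero_le_one (hh.of_le (by exact_mod_cast le_top)).contDiffOn ⟨(ht i).1.le, (ht i).2⟩
      (fun y hy => by
        rw [iteratedDerivWithin_eq_iteratedDeriv (uniqueDiffOn_Icc zero_lt_one)
          (hh.of_le (by exact_mod_cast le_top)).contDiffAt hy]
        exact hB y hy)
    rw [Real.norm_eq_abs, sub_zero] at h2
    refine h2.trans ?_
    have h3 : (1 : ℝ) ≤ (q.factorial : ℝ) := by exact_mod_cast Nat.succ_le_of_lt q.factorial_pos
    have h4 : t i ^ (q + 1) ≤ 1 := pow_le_one₀ (ht i).1.le (ht i).2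
    rw [div_le_iff₀ (by linarith)]
    calc B * t i ^ (q + 1) ≤ B * 1 := by gcongr
      _ ≤ B * q.factorial := by gcongr
  have h2 : ∑ i, c i * taylorWithinEval h q (Set.Icc 0 1) 0 (t i) = h 0 := by
    have h3 : ∀ i, c i * taylorWithinEval h q (Set.Icc 0 1) 0 (t i) =
        ∑ k ∈ Finset.range (q + 1), (((k.factorial : ℝ)⁻¹ *
          iteratedDerivWithin k h (Set.Icc 0 1) 0) * (c i * t i ^ k)) := by
      intro i
      rw [taylor_within_apply, Finset.mul_sum]
      refine Finset.sum_congr rfl fun k _ => ?_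
      rw [sub_zero, smul_eq_mul]
      ring
    simp only [h3]
    rw [Finset.sum_comm]
    have h4 : ∀ k ∈ Finset.range (q + 1), ∑ i, (((k.factorial : ℝ)⁻¹ *
          iteratedDerivWithin k h (Set.Icc 0 1) 0) * (c i * t i ^ k)) =
        if k = 0 then h 0 else 0 := by
      intro k hk
      rw [← Finset.mul_sum, hc k (Finset.mem_range.1 hk)]
      by_cases hk0 : k = 0
      · subst hk0
        simp
      · simp [hk0]
    rw [Finset.sum_congr rfl h4]
    simp
  have h3 : ∑ i, c i * h (t i) - h 0 =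
      ∑ i, c i * (h (t i) - taylorWithinEval h q (Set.Icc 0 1) 0 (t i)) := by
    simp only [mul_sub, Finset.sum_sub_distrib]
    rw [h2]
  rw [h3, Finset.sum_mul]
  refine (Finset.abs_sum_le_sum_abs _ _).trans (Finset.sum_le_sum fun i _ => ?_)
  rw [abs_mul]
  exact mul_le_mul_of_nonneg_left (h1 i) (abs_nonneg _)

variable {m : ℕ}

/-- iterated derivatives along a line -/
lemma iteratedDeriv_line {f : E m → ℝ} (hf : ContDiff ℝ ∞ f) (x0 v : E m) (k : ℕ) (s : ℝ) :
    ‖iteratedDeriv k (fun s : ℝ => f (x0 + s • v)) s‖ ≤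
      ‖v‖ ^ k * ‖iteratedFDeriv ℝ k f (x0 + s • v)‖ := by
  set g : E m → ℝ := fun z => f (x0 + z) with hg
  have hgc : ContDiff ℝ ∞ g := hf.comp (contDiff_const.add contDiff_id)
  set L : ℝ →L[ℝ] E m := ContinuousLinearMap.toSpanSingleton ℝ v with hL
  have e1 : (fun s : ℝ => f (x0 + s • v)) = g ∘ L := by
    funext s
    simp [hg, hL, ContinuousLinearMap.toSpanSingleton_apply]
  rw [← norm_iteratedFDeriv_eq_norm_iteratedDeriv, e1,
    L.iteratedFDeriv_comp_right hgc s (by exact_mod_cast le_top)]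
  refine (ContinuousMultilinearMap.norm_compContinuousLinearMap_le _ _).trans ?_
  rw [Finset.prod_const, Finset.card_univ, Fintype.card_fin]
  have h6 : ‖L‖ ≤ ‖v‖ := by
    rw [hL]
    exact (ContinuousLinearMap.norm_toSpanSingleton v).le
  have h7 : iteratedFDeriv ℝ k g (L s) = iteratedFDeriv ℝ k f (x0 + s • v) := by
    have := iteratedFDeriv_comp_add_left (𝕜 := ℝ) (f := f) k x0 (L s)
    rw [hg, this]
    simp [hL, ContinuousLinearMap.toSpanSingleton_apply]
  rw [h7, mul_comm]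
  gcongr

/-- a fixed kernel -/
lemma exists_kernel (m S : ℕ) : ∃ (η : E m → ℝ) (K : ℝ), 0 ≤ K ∧ ContDiff ℝ ∞ η ∧
    (∀ x, 0 ≤ η x) ∧ (∀ x, 1 / 2 ≤ ‖x‖ → η x = 0) ∧ ∫ x, η x = 1 ∧
    ∀ j ≤ S, ∀ x, ‖iteratedFDeriv ℝ j η x‖ ≤ K := by
  obtain ⟨b, hb1, hb2⟩ : ∃ b : ContDiffBump (0 : E m), b.rIn = 1 / 4 ∧ b.rOut = 1 / 2 :=
    ⟨⟨1 / 4, 1 / 2, by norm_num, by norm_num⟩, rfl, rfl⟩
  have hs : ContDiff ℝ ∞ (b.normed volume) := b.contDiff_normed
  have hc : HasCompactSupport (b.normed (volume : Measure (E m))) := b.hasCompactSupport_normed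
  have h0 : ∀ j : ℕ, ∃ K : ℝ, ∀ x, ‖iteratedFDeriv ℝ j (b.normed volume) x‖ ≤ K := fun j =>
    (hs.continuous_iteratedFDeriv (by exact_mod_cast le_top)).bounded_above_of_compact_support
      (hc.iteratedFDeriv j)
  choose K hK using h0
  refine ⟨b.normed volume, ∑ j ∈ Finset.range (S + 1), |K j|,
    Finset.sum_nonneg fun j _ => abs_nonneg _, hs, fun x => b.nonneg_normed x, fun x hx => ?_,
    b.integral_normed, fun j hj x => ?_⟩
  · have : x ∉ Function.support (b.normed (volume : Measure (E m))) := by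
      rw [b.support_normed_eq, hb2, mem_ball, dist_zero_right]
      exact not_lt.2 hx
    simpa using this
  · refine (hK j x).trans ((le_abs_self _).trans ?_)
    exact Finset.single_le_sum (f := fun j => |K j|) (fun j _ => abs_nonneg _)
      (Finset.mem_range.2 (by omega))

/-- value at the centre: the base case of the interpolation -/
theorem interp_zero (m q S : ℕ) : ∃ C : ℝ, 0 ≤ C ∧ ∀ (f : E m → ℝ) (x0 : E m) (d A B : ℝ),
    ContDiff ℝ ∞ f → 0 < d → d ≤ 1 →
    (∀ x, ‖x - x0‖ < d → ‖iteratedFDeriv ℝ (q + 1) f x‖ ≤ B) →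
    (∀ (φ : E m → ℝ) (M : ℝ), ContDiff ℝ ∞ φ → tsupport φ ⊆ ball x0 d →
      (∀ j ≤ S, ∀ x, ‖iteratedFDeriv ℝ j φ x‖ ≤ M) → |∫ x, f x * φ x| ≤ A * M) →
    |f x0| ≤ C * (A * d⁻¹ ^ (m + S) + d ^ (q + 1) * B) := by
  obtain ⟨c, t, ht, hc⟩ := exists_weights q
  obtain ⟨η, K, hK, hη, hη0, hηs, hη1, hηK⟩ := exists_kernel m S
  set Cw : ℝ := ∑ i, |c i| with hCw
  have hCw0 : 0 ≤ Cw := Finset.sum_nonneg fun i _ => abs_nonneg _
  set C1 : ℝ := ∑ i, |c i| * ((t i)⁻¹ ^ (m + S) * K) with hC1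
  have hC10 : 0 ≤ C1 := Finset.sum_nonneg fun i _ => by
    have := (ht i).1
    positivity
  refine ⟨C1 + Cw, by positivity, fun f x0 d A B hf hd hd1 hB hA => ?_⟩
  have hB0 : 0 ≤ B := (norm_nonneg _).trans (hB x0 (by simpa using hd))
  have hA0 : 0 ≤ A := by
    have := hA 0 1 contDiff_const (by simp) (fun j _ x => by
      have : iteratedFDeriv ℝ j (0 : E m → ℝ) x = 0 := by
        rw [show (0 : E m → ℝ) = fun _ => 0 from rfl, iteratedFDeriv_fun_zero]
        rfl
      rw [this]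
      simp)
    have h2 := (abs_nonneg _).trans this
    linarith
  -- pointwise extrapolation
  have hpt : ∀ y : E m, ‖y‖ < 1 →
      |∑ i, c i * f (x0 + (t i * d) • y) - f x0| ≤ Cw * (d ^ (q + 1) * B) := by
    intro y hy
    have hh : ContDiff ℝ ∞ fun s : ℝ => f (x0 + s • (d • y)) :=
      hf.comp (contDiff_const.add (contDiff_id.smul contDiff_const))
    have h1 := weights_apply (q := q) ht hc hh (B := d ^ (q + 1) * B) (fun s hs => by
      refine (iteratedDeriv_line hf x0 (d • y) (q + 1) s).trans ?_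
      have hn : ‖d • y‖ ≤ d := by
        rw [norm_smul, Real.norm_eq_abs, abs_of_pos hd]
        nlinarith [norm_nonneg y]
      have hn2 : ‖x0 + s • (d • y) - x0‖ < d := by
        rw [add_sub_cancel_left, norm_smul, norm_smul, Real.norm_eq_abs, Real.norm_eq_abs,
          abs_of_pos hd, abs_of_nonneg hs.1]
        have h3 : s * (d * ‖y‖) ≤ 1 * (d * ‖y‖) := by
          have := hs.2
          gcongr
        have h4 : d * ‖y‖ < d * 1 := by gcongr
        linarith
      gcongr
      exact hB _ hn2)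
    simpa only [smul_smul, zero_mul, zero_smul, add_zero] using h1
  -- integrate
  have hcont : ∀ i, Continuous fun y : E m => f (x0 + (t i * d) • y) * η y := fun i =>
    (hf.continuous.comp (by fun_prop)).mul hη.continuous
  have hcs : HasCompactSupport η := by
    refine HasCompactSupport.of_support_subset_isCompact (isCompact_closedBall (0 : E m) (1 / 2))
      fun x hx => ?_
    rw [mem_closedBall, dist_zero_right]
    by_contra hlt
    exact hx (hηs x (le_of_lt (not_le.1 hlt)))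
  have hint : ∀ i, Integrable fun y : E m => f (x0 + (t i * d) • y) * η y := fun i =>
    (hcont i).integrable_of_hasCompactSupport hcs.mul_left
  have hint0 : Integrable fun y : E m => f x0 * η y :=
    (continuous_const.mul hη.continuous).integrable_of_hasCompactSupport hcs.mul_left
  have hintη : Integrable η := hη.continuous.integrable_of_hasCompactSupport hcs
  have e1 : ∑ i, c i * (∫ y, f (x0 + (t i * d) • y) * η y) - f x0 =
      ∫ y, (∑ i, c i * f (x0 + (t i * d) • y) - f x0) * η y := by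
    have h1 : f x0 = ∫ y, f x0 * η y := by
      rw [integral_const_mul, hη1, mul_one]
    conv_lhs => rw [h1]
    have h2 : ∑ i, c i * (∫ y, f (x0 + (t i * d) • y) * η y) =
        ∫ y, ∑ i, c i * (f (x0 + (t i * d) • y) * η y) := by
      rw [integral_finsetSum _ (fun i _ => (hint i).const_mul (c i))]
      refine Finset.sum_congr rfl fun i _ => ?_
      rw [integral_const_mul]
    rw [h2, ← integral_sub (integrable_finsetSum _ fun i _ => (hint i).const_mul (c i)) hint0]
    refine integral_congr_ae (Filter.Eventually.of_forall fun y => ?_)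
    simp only
    rw [sub_mul, Finset.sum_mul]
    congr 1
    refine Finset.sum_congr rfl fun i _ => ?_
    ring
  have e2 : |∑ i, c i * (∫ y, f (x0 + (t i * d) • y) * η y) - f x0| ≤
      Cw * (d ^ (q + 1) * B) := by
    rw [e1]
    have h1 : ‖∫ y, (∑ i, c i * f (x0 + (t i * d) • y) - f x0) * η y‖ ≤
        ∫ y, Cw * (d ^ (q + 1) * B) * η y := by
      refine norm_integral_le_of_norm_le (hintη.const_mul _)
        (Filter.Eventually.of_forall fun y => ?_)
      rw [Real.norm_eq_abs, abs_mul, abs_of_nonneg (hη0 y)]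
      by_cases hy : ‖y‖ < 1
      · exact mul_le_mul_of_nonneg_right (hpt y hy) (hη0 y)
      · rw [hηs y (by linarith [not_lt.1 hy])]
        simp
    rw [integral_const_mul, hη1, mul_one] at h1
    exact h1
  -- the weak bound
  have e3 : ∀ i, |∫ y, f (x0 + (t i * d) • y) * η y| ≤
      A * ((t i)⁻¹ ^ (m + S) * K * d⁻¹ ^ (m + S)) := by
    intro i
    obtain ⟨hti0, hti1⟩ := ht i
    set r : ℝ := t i * d with hr
    have hr0 : 0 < r := by positivity
    have hr1 : r ≤ 1 := by
      rw [hr]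
      nlinarith
    have hrd : r ≤ d := by
      rw [hr]
      nlinarith
    set φ : E m → ℝ := fun x => r⁻¹ ^ m * η (aff (-(r⁻¹ • x0)) r⁻¹ x) + 0 with hφ
    have haff : ∀ y, aff (-(r⁻¹ • x0)) r⁻¹ (x0 + r • y) = y := by
      intro y
      unfold aff
      rw [smul_add, smul_smul, inv_mul_cancel₀ hr0.ne', one_smul]
      abel
    have h1 : ∫ y, f (x0 + r • y) * η y = ∫ x, f x * φ x := by
      have h2 : ∫ y, (fun z => f (x0 + z) * φ (x0 + z)) (r • y) =
          |(r ^ Module.finrank ℝ (E m))⁻¹| • ∫ z, f (x0 + z) * φ (x0 + z) :=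
        Measure.integral_comp_smul volume (fun z => f (x0 + z) * φ (x0 + z)) r
      have h3 : ∫ z, f (x0 + z) * φ (x0 + z) = ∫ x, f x * φ x :=
        integral_add_left_eq_self (fun x => f x * φ x) x0
      rw [h3, finrank_euclideanSpace_fin] at h2
      have h4 : ∀ y, (fun z => f (x0 + z) * φ (x0 + z)) (r • y) =
          r⁻¹ ^ m * (f (x0 + r • y) * η y) := by
        intro y
        simp only [hφ, haff, add_zero]
        ring
      simp only [h4] at h2
      rw [integral_const_mul, smul_eq_mul, abs_of_pos (by positivity)] at h2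
      rw [inv_pow] at h2
      exact mul_left_cancel₀ (by positivity) h2
    rw [h1]
    have haffc : ∀ x, ‖aff (-(r⁻¹ • x0)) r⁻¹ x‖ = r⁻¹ * ‖x - x0‖ := by
      intro x
      unfold aff
      rw [show -(r⁻¹ • x0) + r⁻¹ • x = r⁻¹ • (x - x0) by rw [smul_sub]; abel, norm_smul, norm_inv,
        Real.norm_eq_abs, abs_of_pos hr0]
    have hφs : ContDiff ℝ ∞ φ :=
      (contDiff_const.mul (hη.comp (contDiff_aff _ _))).add contDiff_const
    have hsub : tsupport φ ⊆ ball x0 d := by
      have h5 : tsupport φ ⊆ closedBall x0 (r / 2) := by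
        refine closure_minimal (fun x hx => ?_) isClosed_closedBall
        rw [mem_closedBall, dist_eq_norm]
        by_contra hlt
        apply hx
        simp only [hφ]
        rw [hηs _ (by
          rw [haffc, le_inv_mul_iff₀ hr0]
          linarith [not_le.1 hlt])]
        simp
      refine h5.trans (closedBall_subset_ball ?_)
      linarith
    have hb := hA φ ((t i)⁻¹ ^ (m + S) * K * d⁻¹ ^ (m + S)) hφs hsub (fun j hj x => by
      have h6 : ‖iteratedFDeriv ℝ j φ x‖ ≤ r⁻¹ ^ m * r⁻¹ ^ j * K := by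
        rcases Nat.eq_zero_or_pos j with hj0 | hj0
        · subst hj0
          rw [norm_iteratedFDeriv_zero, pow_zero, mul_one]
          simp only [hφ, add_zero]
          rw [norm_mul, norm_pow, norm_inv, Real.norm_eq_abs, abs_of_pos hr0]
          gcongr
          have := hηK 0 (Nat.zero_le _) (aff (-(r⁻¹ • x0)) r⁻¹ x)
          rwa [norm_iteratedFDeriv_zero] at this
        · refine (norm_iter_aff hη (-(r⁻¹ • x0)) r⁻¹ (r⁻¹ ^ m) 0 hj0 x).trans ?_
          rw [abs_of_pos (by positivity : 0 < r⁻¹ ^ m), abs_of_pos (inv_pos.2 hr0)]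
          gcongr
          exact hηK j hj _
      have hr1' : 1 ≤ r⁻¹ := (one_le_inv₀ hr0).2 hr1
      calc ‖iteratedFDeriv ℝ j φ x‖ ≤ r⁻¹ ^ m * r⁻¹ ^ j * K := h6
        _ ≤ r⁻¹ ^ m * r⁻¹ ^ S * K := by
            gcongr
        _ = (t i)⁻¹ ^ (m + S) * K * d⁻¹ ^ (m + S) := by
            rw [← pow_add, hr, mul_inv, mul_pow]
            ring)
    exact hb
  have e4 : |∑ i, c i * (∫ y, f (x0 + (t i * d) • y) * η y)| ≤ C1 * (A * d⁻¹ ^ (m + S)) := by
    rw [hC1, Finset.sum_mul]
    refine (Finset.abs_sum_le_sum_abs _ _).trans (Finset.sum_le_sum fun i _ => ?_)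
    rw [abs_mul]
    calc |c i| * |∫ y, f (x0 + (t i * d) • y) * η y| ≤
        |c i| * (A * ((t i)⁻¹ ^ (m + S) * K * d⁻¹ ^ (m + S))) :=
          mul_le_mul_of_nonneg_left (e3 i) (abs_nonneg _)
      _ = _ := by ring
  have hdi : 0 ≤ d⁻¹ ^ (m + S) := by positivity
  have h5 : 0 ≤ A * d⁻¹ ^ (m + S) := by positivity
  have h6 : 0 ≤ d ^ (q + 1) * B := by positivity
  calc |f x0| = |∑ i, c i * (∫ y, f (x0 + (t i * d) • y) * η y) -
        (∑ i, c i * (∫ y, f (x0 + (t i * d) • y) * η y) - f x0)| := by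
        congr 1
        ring
    _ ≤ |∑ i, c i * (∫ y, f (x0 + (t i * d) • y) * η y)| +
        |∑ i, c i * (∫ y, f (x0 + (t i * d) • y) * η y) - f x0| := abs_sub _ _
    _ ≤ C1 * (A * d⁻¹ ^ (m + S)) + Cw * (d ^ (q + 1) * B) := add_le_add e4 e2
    _ ≤ (C1 + Cw) * (A * d⁻¹ ^ (m + S) + d ^ (q + 1) * B) := by nlinarith

/-- directional derivatives -/
lemma norm_iter_dir_le {f : E m → ℝ} (hf : ContDiff ℝ ∞ f) (v : E m) (j : ℕ) (x : E m) :
    ‖iteratedFDeriv ℝ j (fun x => fderiv ℝ f x v) x‖ ≤ ‖v‖ * ‖iteratedFDeriv ℝ (j + 1) f x‖ := by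
  have h1 : (fun x => fderiv ℝ f x v) = (ContinuousLinearMap.apply ℝ ℝ v) ∘ fderiv ℝ f := rfl
  have h2 : ContDiff ℝ ∞ (fderiv ℝ f) := hf.fderiv_right (m := ∞) (by simp)
  rw [h1, ← norm_iteratedFDeriv_fderiv]
  refine (ContinuousLinearMap.norm_iteratedFDeriv_comp_left _ h2.contDiffAt
    (by exact_mod_cast le_top)).trans ?_
  gcongr
  exact ContinuousLinearMap.opNorm_le_bound _ (norm_nonneg _) fun L => by
    rw [ContinuousLinearMap.apply_apply, mul_comm]
    exact L.le_opNorm v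

/-- a bound for all directional derivatives bounds the next derivative -/
lemma norm_iter_succ_le {f : E m → ℝ} (hf : ContDiff ℝ ∞ f) {k : ℕ} {x : E m} {R : ℝ} (hR : 0 ≤ R)
    (h : ∀ v : E m, ‖iteratedFDeriv ℝ k (fun x => fderiv ℝ f x v) x‖ ≤ ‖v‖ * R) :
    ‖iteratedFDeriv ℝ (k + 1) f x‖ ≤ R := by
  have h2 : ContDiff ℝ ∞ (fderiv ℝ f) := hf.fderiv_right (m := ∞) (by simp)
  rw [← norm_iteratedFDeriv_fderiv]
  refine ContinuousMultilinearMap.opNorm_le_bound hR fun w => ?_
  have hw : 0 ≤ ∏ i, ‖w i‖ := Finset.prod_nonneg fun i _ => norm_nonneg _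
  refine ContinuousLinearMap.opNorm_le_bound _ (by positivity) fun v => ?_
  have h1 : (fun x => fderiv ℝ f x v) = (ContinuousLinearMap.apply ℝ ℝ v) ∘ fderiv ℝ f := rfl
  have h3 := h v
  rw [h1, ContinuousLinearMap.iteratedFDeriv_comp_left _ h2.contDiffAt
    (by exact_mod_cast le_top)] at h3
  have h4 := ((ContinuousLinearMap.apply ℝ ℝ v).compContinuousMultilinearMap
    (iteratedFDeriv ℝ k (fderiv ℝ f) x)).le_opNorm w
  have h5 : ((ContinuousLinearMap.apply ℝ ℝ v).compContinuousMultilinearMap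
    (iteratedFDeriv ℝ k (fderiv ℝ f) x)) w = (iteratedFDeriv ℝ k (fderiv ℝ f) x w) v := rfl
  rw [h5] at h4
  refine h4.trans ?_
  calc _ ≤ (‖v‖ * R) * ∏ i, ‖w i‖ := by gcongr
    _ = R * (∏ i, ‖w i‖) * ‖v‖ := by ring

/-- the weak bound passes to directional derivatives -/
lemma weak_dir {f : E m → ℝ} (hf : ContDiff ℝ ∞ f) {x0 : E m} {d A : ℝ} {S : ℕ} (hA0 : 0 ≤ A)
    (hA : ∀ (φ : E m → ℝ) (M : ℝ), ContDiff ℝ ∞ φ → tsupport φ ⊆ ball x0 d →
      (∀ j ≤ S, ∀ x, ‖iteratedFDeriv ℝ j φ x‖ ≤ M) → |∫ x, f x * φ x| ≤ A * M) (v : E m)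
    (φ : E m → ℝ) (M : ℝ) (hφ : ContDiff ℝ ∞ φ) (hs : tsupport φ ⊆ ball x0 d)
    (hM : ∀ j ≤ S + 1, ∀ x, ‖iteratedFDeriv ℝ j φ x‖ ≤ M) :
    |∫ x, fderiv ℝ f x v * φ x| ≤ ‖v‖ * A * M := by
  have hcs : HasCompactSupport φ :=
    (isCompact_closedBall x0 d).of_isClosed_subset (isClosed_tsupport φ)
      (hs.trans ball_subset_closedBall)
  have hdf : Differentiable ℝ f := hf.differentiable (by simp)
  have hdφ : Differentiable ℝ φ := hφ.differentiable (by simp)
  have hf1 : Continuous fun x => fderiv ℝ f x v :=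
    ((hf.fderiv_right (m := ∞) (by simp)).continuous).clm_apply continuous_const
  have hφ1 : ContDiff ℝ ∞ fun x => fderiv ℝ φ x v :=
    (hφ.fderiv_right (m := ∞) (by simp)).clm_apply contDiff_const
  have hcs1 : HasCompactSupport fun x => fderiv ℝ φ x v :=
    hcs.of_isClosed_subset (isClosed_tsupport _) (tsupport_fderiv_apply_subset ℝ v)
  have h1 := integral_mul_fderiv_eq_neg_fderiv_mul_of_integrable (μ := (volume : Measure (E m)))
    (f := f) (g := φ) (v := v) ((hf1.mul hφ.continuous).integrable_of_hasCompactSupport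
      hcs.mul_left) ((hf.continuous.mul hφ1.continuous).integrable_of_hasCompactSupport
      hcs1.mul_left) ((hf.continuous.mul hφ.continuous).integrable_of_hasCompactSupport
      hcs.mul_left) (fun x _ => hdf x) (fun x _ => hdφ x)
  have h2 : |∫ x, fderiv ℝ f x v * φ x| = |∫ x, f x * fderiv ℝ φ x v| := by
    rw [h1, abs_neg]
  rw [h2]
  have h3 := hA (fun x => fderiv ℝ φ x v) (‖v‖ * M) hφ1
    ((tsupport_fderiv_apply_subset ℝ v).trans hs) (fun j hj x =>
      (norm_iter_dir_le hφ v j x).trans (by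
        gcongr
        exact hM (j + 1) (by omega) x))
  linarith

/-- **interpolation** between the weak norm and the derivative of order `k + p + 1` -/
theorem interp (m p : ℕ) : ∀ k S : ℕ, ∃ C : ℝ, 0 ≤ C ∧
    ∀ (f : E m → ℝ) (x0 : E m) (d A B : ℝ), ContDiff ℝ ∞ f → 0 < d → d ≤ 1 → 0 ≤ A →
    (∀ x, ‖x - x0‖ < d → ‖iteratedFDeriv ℝ (k + p + 1) f x‖ ≤ B) →
    (∀ (φ : E m → ℝ) (M : ℝ), ContDiff ℝ ∞ φ → tsupport φ ⊆ ball x0 d →
      (∀ j ≤ S, ∀ x, ‖iteratedFDeriv ℝ j φ x‖ ≤ M) → |∫ x, f x * φ x| ≤ A * M) →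
    ‖iteratedFDeriv ℝ k f x0‖ ≤ C * (A * d⁻¹ ^ (m + k + S) + d ^ (p + 1) * B) := by
  intro k
  induction k with
  | zero =>
    intro S
    obtain ⟨C, hC, h⟩ := interp_zero m p S
    refine ⟨C, hC, fun f x0 d A B hf hd hd1 hA0 hB hA => ?_⟩
    rw [norm_iteratedFDeriv_zero, Real.norm_eq_abs, add_zero]
    rw [zero_add] at hB
    exact h f x0 d A B hf hd hd1 hB hA
  | succ k ih =>
    intro S
    obtain ⟨C, hC, h⟩ := ih (S + 1)
    refine ⟨C, hC, fun f x0 d A B hf hd hd1 hA0 hB hA => ?_⟩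
    have hB0 : 0 ≤ B := (norm_nonneg _).trans (hB x0 (by simpa using hd))
    refine norm_iter_succ_le hf (by positivity) fun v => ?_
    have hfv : ContDiff ℝ ∞ fun x => fderiv ℝ f x v :=
      (hf.fderiv_right (m := ∞) (by simp)).clm_apply contDiff_const
    have h1 := h (fun x => fderiv ℝ f x v) x0 d (‖v‖ * A) (‖v‖ * B) hfv hd hd1
      (by positivity) (fun x hx => (norm_iter_dir_le hf v _ x).trans (by
        have h2 := hB x hx
        rw [show k + 1 + p + 1 = k + p + 1 + 1 by ring] at h2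
        gcongr))
      (fun φ M hφ hs hM => weak_dir hf hA0 hA v φ M hφ hs hM)
    refine h1.trans (le_of_eq ?_)
    rw [show m + k + (S + 1) = m + (k + 1) + S by ring]
    ring

end

end Vale.Agent.P214.UPG
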